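import Crest.Agent.X212.Grp72.Grp

/-! The gauge action on connections and on modules: algebra, smoothness, derivative. -/

set_option linter.unusedSectionVars false

noncomputable section

namespace Crest.Agent.X212.Grp72

open Set Filter Topology

variable {B L : Type*} [NormedAddCommGroup B] [NormedSpace ℝ B] [NormedAddCommGroup L]
  [NormedSpace ℝ L]

/-- A star bimodule `A` (algebra valued 1-forms) with a derivation `D`; `A₀` = skew elements.
`l u a = u a`, `r v a = a v`. -/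
structure BM (Γ : SA B L) (A A₀ : Type*) [NormedAddCommGroup A] [NormedSpace ℝ A]
    [NormedAddCommGroup A₀] [NormedSpace ℝ A₀] where
  l : B →L[ℝ] A →L[ℝ] A
  r : B →L[ℝ] A →L[ℝ] A
  D : B →L[ℝ] A
  s : A →L[ℝ] A
  j : A₀ →L[ℝ] A
  π : A →L[ℝ] A₀
  lm : ∀ u v a, l (Γ.m u v) a = l u (l v a)
  rm : ∀ u v a, r (Γ.m u v) a = r v (r u a)
  lr : ∀ u v a, l u (r v a) = r v (l u a)
  Dm : ∀ u v, D (Γ.m u v) = r v (D u) + l u (D v)
  sl : ∀ u a, s (l u a) = r (Γ.s u) (s a)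
  sr : ∀ u a, s (r u a) = l (Γ.s u) (s a)
  sD : ∀ u, s (D u) = D (Γ.s u)
  πj : ∀ a, π (j a) = a
  sj : ∀ a, s (j a) = -j a
  jπ : ∀ x, s x = -x → j (π x) = x

namespace BM

variable {Γ : SA B L} {A A₀ : Type*} [NormedAddCommGroup A] [NormedSpace ℝ A]
  [NormedAddCommGroup A₀] [NormedSpace ℝ A₀] (M : BM Γ A A₀)

/-- `(1 + u) a`. -/
def gl (u : B) (a : A) : A := a + M.l u a
/-- `a (1 + u)`. -/
def gr (u : B) (a : A) : A := a + M.r u a

theorem gl_circ (u v : B) (a : A) : M.gl (Γ.circ u v) a = M.gl u (M.gl v a) := by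
  simp only [gl, SA.circ, map_add, add_apply, M.lm]; abel

theorem gr_circ (u v : B) (a : A) : M.gr (Γ.circ u v) a = M.gr v (M.gr u a) := by
  simp only [gr, SA.circ, map_add, add_apply, M.rm]; abel

theorem gl_gr (u v : B) (a : A) : M.gl u (M.gr v a) = M.gr v (M.gl u a) := by
  simp only [gl, gr, map_add, M.lr]; abel

theorem D_circ (u v : B) : M.D (Γ.circ u v) = M.gr v (M.D u) + M.gl u (M.D v) := by
  simp only [gl, gr, SA.circ, map_add, M.Dm]; abel

@[simp] theorem gl_zero (a : A) : M.gl 0 a = a := by simp [gl]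
@[simp] theorem gr_zero (a : A) : M.gr 0 a = a := by simp [gr]

theorem gl_sub (u : B) (a b : A) : M.gl u (a - b) = M.gl u a - M.gl u b := by
  simp only [gl, map_sub]; abel

theorem gr_sub (u : B) (a b : A) : M.gr u (a - b) = M.gr u a - M.gr u b := by
  simp only [gr, map_sub]; abel

theorem s_gl (u : B) (a : A) : M.s (M.gl u a) = M.gr (Γ.s u) (M.s a) := by
  simp only [gl, gr, map_add, M.sl]

theorem s_gr (u : B) (a : A) : M.s (M.gr u a) = M.gl (Γ.s u) (M.s a) := by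
  simp only [gl, gr, map_add, M.sr]

/-- `g a g⁻¹ - (D g) g⁻¹` for `g = 1 + u`. -/
def raw (u : B) (a : A) : A := M.gr (Γ.s u) (M.gl u a - M.D u)

@[simp] theorem raw_zero (a : A) : M.raw 0 a = a := by simp [raw]

theorem raw_circ (u : B) {v : B} (hv : Γ.IsU v) (a : A) :
    M.raw (Γ.circ u v) a = M.raw u (M.raw v a) := by
  have h : M.gr (Γ.s v) (M.gr v (M.D u)) = M.D u := by rw [← gr_circ, hv.1, gr_zero]
  simp only [raw, Γ.s_circ, gr_circ, gl_circ, D_circ]
  congr 1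
  rw [gl_gr, gl_sub, ← sub_sub, sub_right_comm, M.gr_sub _ (_ - _), h]

theorem s_raw {u : B} (hu : Γ.IsU u) {a : A} (ha : M.s a = -a) : M.s (M.raw u a) = -M.raw u a := by
  have h := M.D_circ u (Γ.s u)
  rw [hu.1, map_zero] at h
  rw [raw, s_gr, Γ.ss, map_sub, s_gl, M.sD, gl_sub, gl_gr, ha, gr_sub,
    eq_neg_of_add_eq_zero_right h.symm]
  simp only [gl, gr, map_neg, map_add]
  abel

/-- `D g = g a - b g` for `b = g • a`. -/
theorem D_eq {u : B} (hu : Γ.IsU u) (a : A) : M.D u = M.gl u a - M.gr u (M.raw u a) := by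
  rw [raw, ← gr_circ, hu.2, gr_zero]; abel

theorem raw_eq_iff {u : B} (hu : Γ.IsU u) (a b : A) :
    M.raw u a = b ↔ M.D u = M.gl u a - M.gr u b := by
  refine ⟨fun h => h ▸ M.D_eq hu a, fun h => ?_⟩
  rw [raw, h, sub_sub_cancel, ← gr_circ, hu.1, gr_zero]

/-- the gauge action on connections. -/
def act (u : B) (a : A₀) : A₀ := M.π (M.raw u (M.j a))

theorem j_act {u : B} (hu : Γ.IsU u) (a : A₀) : M.j (M.act u a) = M.raw u (M.j a) :=
  M.jπ _ (M.s_raw hu (M.sj a))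

@[simp] theorem act_zero (a : A₀) : M.act 0 a = a := by simp [act, M.πj]

theorem act_circ (u : B) {v : B} (hv : Γ.IsU v) (a : A₀) :
    M.act (Γ.circ u v) a = M.act u (M.act v a) := by
  rw [act, M.raw_circ u hv, ← M.j_act hv]; rfl

theorem j_inj : Function.Injective M.j := fun a b h => by rw [← M.πj a, h, M.πj]

theorem act_eq_iff {u : B} (hu : Γ.IsU u) (a b : A₀) :
    M.act u a = b ↔ M.D u = M.gl u (M.j a) - M.gr u (M.j b) := by
  rw [← M.raw_eq_iff hu, ← M.j_act hu, M.j_inj.eq_iff]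

theorem contDiff_raw {n : WithTop ℕ∞} : ContDiff ℝ n fun p : B × A => M.raw p.1 p.2 := by
  have h : ContDiff ℝ n fun p : B × A => M.gl p.1 p.2 - M.D p.1 :=
    (contDiff_snd.add ((M.l.contDiff.comp contDiff_fst).clm_apply contDiff_snd)).sub
      (M.D.contDiff.comp contDiff_fst)
  exact h.add (((M.r.comp Γ.s).contDiff.comp contDiff_fst).clm_apply h)

theorem contDiff_act {n : WithTop ℕ∞} : ContDiff ℝ n fun p : B × A₀ => M.act p.1 p.2 :=
  M.π.contDiff.comp (M.contDiff_raw.comp (contDiff_fst.prodMk (M.j.contDiff.comp contDiff_snd)))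

/-- the covariant derivative `u ↦ D u + a u - u a` on the algebra. -/
def cov (a : A) : B →L[ℝ] A := M.D + M.r.flip a - M.l.flip a

theorem cov_apply (a : A) (u : B) : M.cov a u = M.D u + M.r u a - M.l u a := rfl

/-- derivative of the raw action at `u = 0`. -/
def raw' (a : A) : B × A →L[ℝ] A :=
  (M.l.flip a + (M.r.flip a).comp Γ.s - M.D).coprod (ContinuousLinearMap.id ℝ A)

theorem hasStrict_raw (a : A) :
    HasStrictFDerivAt (fun p : B × A => M.raw p.1 p.2) (M.raw' a) (0, a) := by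
  have h1 : HasStrictFDerivAt (fun p : B × A => M.l p.1) (M.l.comp (.fst ℝ B A)) (0, a) :=
    (M.l.comp (.fst ℝ B A)).hasStrictFDerivAt
  have h2 : HasStrictFDerivAt (fun p : B × A => M.r (Γ.s p.1)) ((M.r.comp Γ.s).comp (.fst ℝ B A))
      (0, a) := ((M.r.comp Γ.s).comp (.fst ℝ B A)).hasStrictFDerivAt
  have h3 : HasStrictFDerivAt (fun p : B × A => M.D p.1) (M.D.comp (.fst ℝ B A)) (0, a) :=
    (M.D.comp (.fst ℝ B A)).hasStrictFDerivAt
  have h4 := (hasStrictFDerivAt_snd.add (h1.clm_apply hasStrictFDerivAt_snd)).sub h3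
  refine (h4.add (h2.clm_apply h4)).congr_fderiv (ContinuousLinearMap.ext fun q => ?_)
  simp [raw']
  abel

/-- the infinitesimal action `ξ ↦ -∇_a ξ` on connections. -/
def d (a : A₀) : L →L[ℝ] A₀ := -(M.π.comp ((M.cov (M.j a)).comp Γ.j))

theorem s_cov (a : A₀) (ξ : L) : M.s (M.cov (M.j a) (Γ.j ξ)) = -M.cov (M.j a) (Γ.j ξ) := by
  simp only [cov_apply, map_sub, map_add, M.sD, M.sr, M.sl, Γ.sj, M.sj, map_neg, neg_apply, neg_neg]
  abel

theorem j_d (a : A₀) (ξ : L) : M.j (M.d a ξ) = -M.cov (M.j a) (Γ.j ξ) := by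
  simp only [d, neg_apply, ContinuousLinearMap.comp_apply, map_neg, M.jπ _ (M.s_cov a ξ)]

/-- derivative of the action at `u = 0`. -/
def act' (a : A₀) : B × A₀ →L[ℝ] A₀ :=
  M.π.comp ((M.raw' (M.j a)).comp ((ContinuousLinearMap.id ℝ B).prodMap M.j))

theorem hasStrict_act (a : A₀) :
    HasStrictFDerivAt (fun p : B × A₀ => M.act p.1 p.2) (M.act' a) (0, a) :=
  M.π.hasStrictFDerivAt.comp ((0 : B), a) (HasStrictFDerivAt.comp
    (f := (ContinuousLinearMap.id ℝ B).prodMap M.j) ((0 : B), a) (M.hasStrict_raw (M.j a))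
    (ContinuousLinearMap.hasStrictFDerivAt _))

theorem act'_j (a : A₀) (ξ : L) : M.act' a (Γ.j ξ, 0) = M.d a ξ := by
  simp only [act', raw', d, neg_apply, ContinuousLinearMap.comp_apply, ← map_neg, cov_apply]
  congr 1
  simp [Γ.sj]
  abel

end BM

/-- A left module (spinors): `μ u Φ = u Φ`. -/
structure LM (Γ : SA B L) (S : Type*) [NormedAddCommGroup S] [NormedSpace ℝ S] where
  μ : B →L[ℝ] S →L[ℝ] S
  μm : ∀ u v Φ, μ (Γ.m u v) Φ = μ u (μ v Φ)

namespace LM

variable {Γ : SA B L} {S : Type*} [NormedAddCommGroup S] [NormedSpace ℝ S] (N : LM Γ S)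

/-- the operator `Φ ↦ (1 + u) Φ`. -/
def rep (u : B) : S →L[ℝ] S := 1 + N.μ u

theorem rep_apply (u : B) (Φ : S) : N.rep u Φ = Φ + N.μ u Φ := rfl

@[simp] theorem rep_zero : N.rep 0 = 1 := by simp [rep]

theorem rep_circ (u v : B) (Φ : S) : N.rep (Γ.circ u v) Φ = N.rep u (N.rep v Φ) := by
  simp only [rep_apply, SA.circ, map_add, add_apply, N.μm]; abel

theorem contDiff_rep {n : WithTop ℕ∞} : ContDiff ℝ n N.rep := contDiff_const.add N.μ.contDiff

theorem hasStrict_rep (u : B) : HasStrictFDerivAt N.rep N.μ u :=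
  N.μ.hasStrictFDerivAt.const_add 1

end LM

/-- the circle acts on a space with a complex structure `J`. -/
def circleLM {S : Type*} [NormedAddCommGroup S] [NormedSpace ℝ S] (J : S →L[ℝ] S)
    (hJ : ∀ Φ, J (J Φ) = -Φ) : LM circle S where
  μ := Complex.reCLM.smulRight 1 + Complex.imCLM.smulRight J
  μm u v Φ := by
    simp only [circle, ContinuousLinearMap.mul_apply', add_apply,
      ContinuousLinearMap.smulRight_apply, Complex.reCLM_apply, Complex.imCLM_apply, smul_apply,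
      one_apply_eq_self, Complex.mul_re, Complex.mul_im, map_add, map_smul, hJ]
    module

/-- A smooth representation of the group on `S`: `ρ u` is the operator of `g = 1 + u`. -/
structure Rp (Γ : SA B L) (S : Type*) [NormedAddCommGroup S] [NormedSpace ℝ S] where
  ρ : B → S →L[ℝ] S
  ρ' : B →L[ℝ] S →L[ℝ] S
  zero : ρ 0 = 1
  circ : ∀ u v, Γ.IsU u → Γ.IsU v → ∀ Φ, ρ (Γ.circ u v) Φ = ρ u (ρ v Φ)
  sm : ContDiff ℝ ⊤ ρ
  der : HasStrictFDerivAt ρ ρ' 0

/-- a module is a representation. -/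
def LM.toRp {Γ : SA B L} {S : Type*} [NormedAddCommGroup S] [NormedSpace ℝ S] (N : LM Γ S) :
    Rp Γ S :=
  ⟨N.rep, N.μ, N.rep_zero, fun u v _ _ => N.rep_circ u v, N.contDiff_rep, N.hasStrict_rep 0⟩

namespace Rp

variable {Γ : SA B L} {S : Type*} [NormedAddCommGroup S] [NormedSpace ℝ S]

/-- the trivial representation. -/
def triv (Γ : SA B L) (S : Type*) [NormedAddCommGroup S] [NormedSpace ℝ S] : Rp Γ S :=
  ⟨fun _ => 1, 0, rfl, fun _ _ _ _ _ => rfl, contDiff_const, hasStrictFDerivAt_const _ _⟩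

/-- product of two commuting representations (weight 2 = `R.mul R`). -/
def mul (R R' : Rp Γ S) (h : ∀ u v, Γ.IsU u → Γ.IsU v → ∀ Φ, R'.ρ u (R.ρ v Φ) = R.ρ v (R'.ρ u Φ)) :
    Rp Γ S where
  ρ u := R.ρ u * R'.ρ u
  ρ' := R.ρ' + R'.ρ'
  zero := by rw [R.zero, R'.zero, mul_one]
  circ u v hu hv Φ := by
    simp only [mul_apply_eq_comp, R.circ u v hu hv, R'.circ u v hu hv, h u v hu hv]
  sm := R.sm.mul R'.sm
  der := (R.der.mul' R'.der).congr_fderiv (by
    ext v Φ; simp [R.zero, R'.zero, add_comm])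

variable {B' L' : Type*} [NormedAddCommGroup B'] [NormedSpace ℝ B'] [NormedAddCommGroup L']
  [NormedSpace ℝ L']

/-- a representation of the first factor. -/
def fst (R : Rp Γ S) (Γ' : SA B' L') : Rp (Γ.prod Γ') S where
  ρ u := R.ρ u.1
  ρ' := R.ρ'.comp (.fst ℝ B B')
  zero := R.zero
  circ u v hu hv := R.circ u.1 v.1 ((Γ.prod_isU Γ' u).1 hu).1 ((Γ.prod_isU Γ' v).1 hv).1
  sm := R.sm.comp contDiff_fst
  der := HasStrictFDerivAt.comp (f := Prod.fst) (0 : B × B') R.der hasStrictFDerivAt_fst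

/-- a representation of the second factor. -/
def snd (Γ' : SA B' L') (R : Rp Γ S) : Rp (Γ'.prod Γ) S where
  ρ u := R.ρ u.2
  ρ' := R.ρ'.comp (.snd ℝ B' B)
  zero := R.zero
  circ u v hu hv := R.circ u.2 v.2 ((Γ'.prod_isU Γ u).1 hu).2 ((Γ'.prod_isU Γ v).1 hv).2
  sm := R.sm.comp contDiff_snd
  der := HasStrictFDerivAt.comp (f := Prod.snd) (0 : B' × B) R.der hasStrictFDerivAt_snd

theorem hasStrict (R : Rp Γ S) (Φ : S) : HasStrictFDerivAt (fun p : B × S => R.ρ p.1 p.2)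
    ((R.ρ'.flip Φ).coprod (ContinuousLinearMap.id ℝ S)) (0, Φ) := by
  have h : HasStrictFDerivAt (fun p : B × S => R.ρ p.1) (R.ρ'.comp (.fst ℝ B S)) (0, Φ) :=
    HasStrictFDerivAt.comp (f := Prod.fst) ((0 : B), Φ) R.der hasStrictFDerivAt_fst
  refine (h.clm_apply hasStrictFDerivAt_snd).congr_fderiv (ContinuousLinearMap.ext fun q => ?_)
  simp [R.zero, add_comm]

end Rp

/-- A smooth action with its infinitesimal action `d`; closed under products. -/
structure Act (Γ : SA B L) (C : Type*) [NormedAddCommGroup C] [NormedSpace ℝ C] where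
  α : B → C → C
  α' : C → B × C →L[ℝ] C
  zero : ∀ x, α 0 x = x
  circ : ∀ u v, Γ.IsU u → Γ.IsU v → ∀ x, α (Γ.circ u v) x = α u (α v x)
  sm : ContDiff ℝ ⊤ fun p : B × C => α p.1 p.2
  der : ∀ x, HasStrictFDerivAt (fun p : B × C => α p.1 p.2) (α' x) (0, x)

namespace Act

variable {Γ : SA B L} {C C' : Type*} [NormedAddCommGroup C] [NormedSpace ℝ C]
  [NormedAddCommGroup C'] [NormedSpace ℝ C']

/-- the `MulAction` of the gauge group. -/
@[reducible] def mulAction (T : Act Γ C) : MulAction Γ.G C := Γ.mulAction T.α T.zero T.circ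

/-- the infinitesimal action. -/
def d (T : Act Γ C) (x : C) : L →L[ℝ] C := (T.α' x).comp ((ContinuousLinearMap.inl ℝ B C).comp Γ.j)

theorem d_apply (T : Act Γ C) (x : C) (ξ : L) : T.d x ξ = T.α' x (Γ.j ξ, 0) := rfl

theorem continuousSMul (T : Act Γ C) [MulAction Γ.G C] (h : ∀ (g : Γ.G) x, g • x = T.α g.u x) :
    ContinuousSMul Γ.G C := SA.continuousSMul h T.sm.continuous

theorem hasStrict [CompleteSpace B] (T : Act Γ C) [MulAction Γ.G C]
    (h : ∀ (g : Γ.G) x, g • x = T.α g.u x) (x : C) :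
    HasStrictFDerivAt (fun q : L × C => Γ.e q.1 • q.2)
      ((T.d x).coprod (ContinuousLinearMap.id ℝ C)) (0, x) :=
  SA.hasStrict_act h (T.der x) fun _ => rfl

/-- diagonal action on a product. -/
def prod (T : Act Γ C) (T' : Act Γ C') : Act Γ (C × C') where
  α u x := (T.α u x.1, T'.α u x.2)
  α' x := ((T.α' x.1).comp ((ContinuousLinearMap.id ℝ B).prodMap (.fst ℝ C C'))).prod
    ((T'.α' x.2).comp ((ContinuousLinearMap.id ℝ B).prodMap (.snd ℝ C C')))
  zero _ := Prod.ext (T.zero _) (T'.zero _)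
  circ u v hu hv _ := Prod.ext (T.circ u v hu hv _) (T'.circ u v hu hv _)
  sm := (T.sm.comp ((ContinuousLinearMap.id ℝ B).prodMap (.fst ℝ C C')).contDiff).prodMk
    (T'.sm.comp ((ContinuousLinearMap.id ℝ B).prodMap (.snd ℝ C C')).contDiff)
  der x := (HasStrictFDerivAt.comp (f := (ContinuousLinearMap.id ℝ B).prodMap (.fst ℝ C C'))
      ((0 : B), x) (T.der x.1) (ContinuousLinearMap.hasStrictFDerivAt _)).prodMk
    (HasStrictFDerivAt.comp (f := (ContinuousLinearMap.id ℝ B).prodMap (.snd ℝ C C'))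
      ((0 : B), x) (T'.der x.2) (ContinuousLinearMap.hasStrictFDerivAt _))

theorem prod_d (T : Act Γ C) (T' : Act Γ C') (x : C × C') (ξ : L) :
    (T.prod T').d x ξ = (T.d x.1 ξ, T'.d x.2 ξ) := rfl

variable {B' L' : Type*} [NormedAddCommGroup B'] [NormedSpace ℝ B'] [NormedAddCommGroup L']
  [NormedSpace ℝ L']

/-- an action of the first factor of a product group. -/
def fst (T : Act Γ C) (Γ' : SA B' L') : Act (Γ.prod Γ') C where
  α u := T.α u.1
  α' x := (T.α' x).comp ((ContinuousLinearMap.fst ℝ B B').prodMap (.id ℝ C))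
  zero := T.zero
  circ u v hu hv := T.circ u.1 v.1 ((Γ.prod_isU Γ' u).1 hu).1 ((Γ.prod_isU Γ' v).1 hv).1
  sm := T.sm.comp ((ContinuousLinearMap.fst ℝ B B').prodMap (.id ℝ C)).contDiff
  der x := HasStrictFDerivAt.comp (f := (ContinuousLinearMap.fst ℝ B B').prodMap (.id ℝ C))
    ((0 : B × B'), x) (T.der x) (ContinuousLinearMap.hasStrictFDerivAt _)

theorem fst_d (T : Act Γ C) (Γ' : SA B' L') (x : C) (ξ : L × L') :
    (T.fst Γ').d x ξ = T.d x ξ.1 := rfl

/-- an action of the second factor of a product group. -/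
def snd (Γ' : SA B' L') (T : Act Γ C) : Act (Γ'.prod Γ) C where
  α u := T.α u.2
  α' x := (T.α' x).comp ((ContinuousLinearMap.snd ℝ B' B).prodMap (.id ℝ C))
  zero := T.zero
  circ u v hu hv := T.circ u.2 v.2 ((Γ'.prod_isU Γ u).1 hu).2 ((Γ'.prod_isU Γ v).1 hv).2
  sm := T.sm.comp ((ContinuousLinearMap.snd ℝ B' B).prodMap (.id ℝ C)).contDiff
  der x := HasStrictFDerivAt.comp (f := (ContinuousLinearMap.snd ℝ B' B).prodMap (.id ℝ C))
    ((0 : B' × B), x) (T.der x) (ContinuousLinearMap.hasStrictFDerivAt _)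

theorem snd_d (Γ' : SA B' L') (T : Act Γ C) (x : C) (ξ : L' × L) :
    (T.snd Γ').d x ξ = T.d x ξ.2 := rfl

end Act

/-- the action on connections. -/
def BM.toAct {Γ : SA B L} {A A₀ : Type*} [NormedAddCommGroup A] [NormedSpace ℝ A]
    [NormedAddCommGroup A₀] [NormedSpace ℝ A₀] (M : BM Γ A A₀) : Act Γ A₀ :=
  ⟨M.act, M.act', M.act_zero, fun u _ _ hv => M.act_circ u hv, M.contDiff_act, M.hasStrict_act⟩

theorem BM.toAct_d {Γ : SA B L} {A A₀ : Type*} [NormedAddCommGroup A] [NormedSpace ℝ A]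
    [NormedAddCommGroup A₀] [NormedSpace ℝ A₀] (M : BM Γ A A₀) (a : A₀) (ξ : L) :
    M.toAct.d a ξ = M.d a ξ := M.act'_j a ξ

/-- the action of a representation. -/
def Rp.toAct {Γ : SA B L} {S : Type*} [NormedAddCommGroup S] [NormedSpace ℝ S] (R : Rp Γ S) :
    Act Γ S :=
  ⟨fun u Φ => R.ρ u Φ, fun Φ => (R.ρ'.flip Φ).coprod (ContinuousLinearMap.id ℝ S),
    fun Φ => by rw [R.zero]; rfl, R.circ, (R.sm.comp contDiff_fst).clm_apply contDiff_snd,
    R.hasStrict⟩

theorem Rp.toAct_d {Γ : SA B L} {S : Type*} [NormedAddCommGroup S] [NormedSpace ℝ S] (R : Rp Γ S)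
    (Φ : S) (ξ : L) : R.toAct.d Φ ξ = R.ρ' (Γ.j ξ) Φ := by
  simp [Act.d_apply, Rp.toAct]

end Crest.Agent.X212.Grp72
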