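import Mathlib

/-! The unitary group `{g = 1 + u}` of a non-unital Banach star algebra given by bounded maps,
its Cayley chart, and smooth actions. -/

set_option linter.unusedSectionVars false

noncomputable section

namespace Crest.Agent.X212.Grp72

open Set Filter Topology

/-- A Banach space `B` with a bounded associative product and a star; `L` = skew elements. -/
structure SA (B L : Type*) [NormedAddCommGroup B] [NormedSpace ℝ B] [NormedAddCommGroup L]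
    [NormedSpace ℝ L] where
  m : B →L[ℝ] B →L[ℝ] B
  s : B →L[ℝ] B
  j : L →L[ℝ] B
  π : B →L[ℝ] L
  assoc : ∀ u v w, m (m u v) w = m u (m v w)
  ss : ∀ u, s (s u) = u
  sm : ∀ u v, s (m u v) = m (s v) (s u)
  πj : ∀ ξ, π (j ξ) = ξ
  sj : ∀ ξ, s (j ξ) = -j ξ
  jπ : ∀ x, s x = -x → j (π x) = x

namespace SA

variable {B L : Type*} [NormedAddCommGroup B] [NormedSpace ℝ B] [NormedAddCommGroup L]
  [NormedSpace ℝ L] (Γ : SA B L)

/-- `(1+u)(1+v) = 1 + circ u v`. -/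
def circ (u v : B) : B := u + v + Γ.m u v

theorem circ_assoc (u v w : B) : Γ.circ (Γ.circ u v) w = Γ.circ u (Γ.circ v w) := by
  simp only [circ, map_add, add_apply, Γ.assoc]; abel

@[simp] theorem circ_zero (u : B) : Γ.circ u 0 = u := by simp [circ]
@[simp] theorem zero_circ (u : B) : Γ.circ 0 u = u := by simp [circ]

theorem s_circ (u v : B) : Γ.s (Γ.circ u v) = Γ.circ (Γ.s v) (Γ.s u) := by
  simp only [circ, map_add, Γ.sm]; abel

theorem contDiff_circ {n : WithTop ℕ∞} : ContDiff ℝ n fun p : B × B => Γ.circ p.1 p.2 :=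
  (contDiff_fst.add contDiff_snd).add ((Γ.m.contDiff.comp contDiff_fst).clm_apply contDiff_snd)

/-- `1 + u` is unitary. -/
def IsU (u : B) : Prop := Γ.circ u (Γ.s u) = 0 ∧ Γ.circ (Γ.s u) u = 0

theorem isClosed_isU : IsClosed {u | Γ.IsU u} := by
  have h := (Γ.contDiff_circ (n := 0)).continuous
  exact (isClosed_eq (h.comp (continuous_id.prodMk Γ.s.continuous)) continuous_const).inter
    (isClosed_eq (h.comp (Γ.s.continuous.prodMk continuous_id)) continuous_const)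

/-- the gauge group. -/
def G : Type _ := {u : B // Γ.IsU u}

variable {Γ}

/-- `g = 1 + g.u`. -/
def G.u (g : Γ.G) : B := g.1

theorem G.isU (g : Γ.G) : Γ.IsU g.u := g.2

theorem G.ext {g h : Γ.G} (e : g.u = h.u) : g = h := Subtype.ext e

theorem IsU.circ {u v : B} (hu : Γ.IsU u) (hv : Γ.IsU v) : Γ.IsU (Γ.circ u v) := by
  constructor
  · rw [s_circ, circ_assoc, ← Γ.circ_assoc v, hv.1, zero_circ, hu.1]
  · rw [s_circ, circ_assoc, ← Γ.circ_assoc (Γ.s u), hu.2, zero_circ, hv.2]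

theorem IsU.s {u : B} (hu : Γ.IsU u) : Γ.IsU (Γ.s u) :=
  ⟨by rw [Γ.ss, hu.2], by rw [Γ.ss, hu.1]⟩

theorem isU_zero : Γ.IsU 0 := ⟨by simp, by simp⟩

instance : Group Γ.G where
  mul g h := ⟨Γ.circ g.1 h.1, g.2.circ h.2⟩
  one := ⟨0, isU_zero⟩
  inv g := ⟨Γ.s g.1, g.2.s⟩
  mul_assoc a b c := Subtype.ext (Γ.circ_assoc _ _ _)
  one_mul a := Subtype.ext (Γ.zero_circ _)
  mul_one a := Subtype.ext (Γ.circ_zero _)
  inv_mul_cancel a := Subtype.ext a.2.2

@[simp] theorem G.mul_u (g h : Γ.G) : (g * h).u = Γ.circ g.u h.u := rfl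
@[simp] theorem G.one_u : (1 : Γ.G).u = 0 := rfl
@[simp] theorem G.inv_u (g : Γ.G) : (g⁻¹).u = Γ.s g.u := rfl

instance : MetricSpace Γ.G := inferInstanceAs (MetricSpace {u : B // Γ.IsU u})

theorem G.isClosedEmbedding : IsClosedEmbedding (G.u : Γ.G → B) :=
  Γ.isClosed_isU.isClosedEmbedding_subtypeVal

theorem G.continuous_u : Continuous (G.u : Γ.G → B) := G.isClosedEmbedding.continuous

theorem G.tendsto_iff {α : Type*} {f : α → Γ.G} {l : Filter α} {g : Γ.G} :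
    Tendsto f l (𝓝 g) ↔ Tendsto (fun a => (f a).u) l (𝓝 g.u) :=
  G.isClosedEmbedding.isInducing.tendsto_nhds_iff

instance : IsTopologicalGroup Γ.G where
  continuous_mul := G.isClosedEmbedding.isInducing.continuous_iff.2
    ((Γ.contDiff_circ (n := 0)).continuous.comp
      ((G.continuous_u.comp continuous_fst).prodMk (G.continuous_u.comp continuous_snd)))
  continuous_inv := G.isClosedEmbedding.isInducing.continuous_iff.2
    (Γ.s.continuous.comp G.continuous_u)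

/-- a limit of group elements in `B` is a group element. -/
theorem G.exists_of_tendsto {α : Type*} {f : α → Γ.G} {l : Filter α} [l.NeBot] {u : B}
    (h : Tendsto (fun a => (f a).u) l (𝓝 u)) : ∃ g : Γ.G, g.u = u ∧ Tendsto f l (𝓝 g) :=
  ⟨⟨u, Γ.isClosed_isU.mem_of_tendsto h (Eventually.of_forall fun a => (f a).isU)⟩, rfl,
    G.tendsto_iff.2 h⟩

/-! ### the Cayley chart -/

variable [CompleteSpace B] (Γ)

/-- the solution `η` of `η - x η = x`. -/
def qi (x : B) : B := Ring.inverse (1 - Γ.m x) x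

variable {Γ}

theorem inj_sub {x : B} (h : ‖Γ.m x‖ < 1) {w : B} (hw : w - Γ.m x w = 0) : w = 0 := by
  have := congrArg (fun T : B →L[ℝ] B => T w)
    (Ring.inverse_mul_cancel _ (Units.oneSub _ h).isUnit)
  simp only [Units.val_oneSub, mul_apply_eq_comp, sub_apply,
    one_apply_eq_self, hw, map_zero] at this
  exact this.symm

theorem inj_add {x : B} (h : ‖Γ.m x‖ < 1) {w : B} (hw : w + Γ.m x w = 0) : w = 0 :=
  inj_sub (Γ := Γ) (x := -x) (by simpa using h) (by simpa using hw)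

theorem qi_left {x : B} (h : ‖Γ.m x‖ < 1) : Γ.m x (Γ.qi x) = Γ.qi x - x := by
  have := congrArg (fun T : B →L[ℝ] B => T x)
    (Ring.mul_inverse_cancel _ (Units.oneSub _ h).isUnit)
  simp only [Units.val_oneSub, mul_apply_eq_comp, sub_apply,
    one_apply_eq_self] at this
  exact (sub_sub_cancel _ _).symm.trans (congrArg (Γ.qi x - ·) this)

theorem qi_right {x : B} (h : ‖Γ.m x‖ < 1) : Γ.m (Γ.qi x) x = Γ.qi x - x := by
  refine (sub_eq_zero.1 (inj_sub h ?_))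
  simp only [map_sub, ← Γ.assoc, qi_left h, sub_apply]
  abel

theorem qi_eq {x η : B} (h : ‖Γ.m x‖ < 1) (e : Γ.m x η = η - x) : Γ.qi x = η := by
  refine sub_eq_zero.1 (inj_sub h ?_)
  simp only [map_sub, qi_left h, e]
  abel

theorem isU_qi {x : B} (h : ‖Γ.m x‖ < 1) (hs : Γ.s x = -x) : Γ.IsU ((2 : ℝ) • Γ.qi x) := by
  set η := Γ.qi x
  have h1 : Γ.m x η = η - x := qi_left h
  have h2 : Γ.m x (Γ.s η) = -x - Γ.s η := by
    have := congrArg Γ.s (qi_right h)
    rw [Γ.sm, map_sub, hs, map_neg, neg_apply] at this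
    rw [← neg_neg (Γ.m x _), this]; abel
  constructor
  · refine inj_sub h ?_
    simp only [circ, map_add, map_smul, smul_apply, ← Γ.assoc, h1, h2, map_sub,
      sub_apply]
    module
  · refine inj_add h ?_
    simp only [circ, map_add, map_smul, smul_apply, ← Γ.assoc, h1, h2, map_sub,
      map_neg, sub_apply, neg_apply]
    module

theorem contDiffAt_qi {n : WithTop ℕ∞} {x : B} (h : ‖Γ.m x‖ < 1) : ContDiffAt ℝ n Γ.qi x := by
  have h1 : ContDiffAt ℝ n (fun x : B => (1 : B →L[ℝ] B) - Γ.m x) x :=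
    (contDiff_const.sub Γ.m.contDiff).contDiffAt
  exact ((contDiffAt_ringInverse ℝ (Units.oneSub _ h)).comp x h1).clm_apply contDiffAt_id

@[simp] theorem qi_zero : Γ.qi 0 = 0 := by simp [qi]

variable (Γ)

open Classical in
/-- the Cayley chart `ξ ↦ (1 + ξ/2)(1 - ξ/2)⁻¹`. -/
def e (ξ : L) : Γ.G :=
  if h : ‖Γ.m ((2 : ℝ)⁻¹ • Γ.j ξ)‖ < 1 then ⟨_, isU_qi h (by rw [map_smul, Γ.sj, smul_neg])⟩ else 1

theorem small : ∀ᶠ ξ in 𝓝 (0 : L), ‖Γ.m ((2 : ℝ)⁻¹ • Γ.j ξ)‖ < 1 :=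
  (show ContinuousAt (fun ξ : L => ‖Γ.m ((2 : ℝ)⁻¹ • Γ.j ξ)‖) 0 by fun_prop).eventually_lt
    continuousAt_const (by simp)

theorem e_u {ξ : L} (h : ‖Γ.m ((2 : ℝ)⁻¹ • Γ.j ξ)‖ < 1) :
    (Γ.e ξ).u = (2 : ℝ) • Γ.qi ((2 : ℝ)⁻¹ • Γ.j ξ) := by
  simp only [e, dif_pos h]; rfl

theorem e_zero : Γ.e 0 = 1 := G.ext (by rw [Γ.e_u (by simp)]; simp)

theorem contDiffAt_e {n : WithTop ℕ∞} : ContDiffAt ℝ n (fun ξ => (Γ.e ξ).u) 0 := by
  refine ContDiffAt.congr_of_eventuallyEq ?_ (Γ.small.mono fun ξ h => Γ.e_u h)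
  exact ((contDiffAt_qi Γ.small.self_of_nhds).comp 0
    (Γ.j.contDiff.const_smul (2 : ℝ)⁻¹).contDiffAt).const_smul (2 : ℝ)

theorem hasStrict_e : HasStrictFDerivAt (fun ξ => (Γ.e ξ).u) Γ.j 0 := by
  have h1 := (Γ.contDiffAt_e (n := 1)).hasStrictFDerivAt one_ne_zero
  have h2 : HasStrictFDerivAt (fun ξ : L => Γ.m ((2 : ℝ)⁻¹ • Γ.j ξ))
      (Γ.m.comp ((2 : ℝ)⁻¹ • Γ.j)) 0 := (Γ.m.comp ((2 : ℝ)⁻¹ • Γ.j)).hasStrictFDerivAt
  have h3 := Γ.j.hasStrictFDerivAt.add (h2.clm_apply h1)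
  refine (h3.congr_fderiv ?_).congr_of_eventuallyEq (Γ.small.mono fun ξ h => ?_)
  · ext v; simp [Γ.e_zero]
  · simp only [Pi.add_apply, Γ.e_u h, map_smul (Γ.m _), qi_left h]
    module

theorem tendsto_e : Tendsto Γ.e (𝓝 0) (𝓝 1) := by
  rw [G.tendsto_iff, ← Γ.e_zero]
  exact Γ.hasStrict_e.continuousAt

/-- the inverse chart. -/
def lg (u : B) : L := Γ.π ((-2 : ℝ) • Γ.qi ((-2 : ℝ)⁻¹ • u))

theorem contDiffAt_lg {n : WithTop ℕ∞} : ContDiffAt ℝ n Γ.lg 0 :=
  Γ.π.contDiff.contDiffAt.comp 0 (((contDiffAt_qi (Γ := Γ) (by simp)).comp 0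
    (contDiff_id.const_smul _).contDiffAt).const_smul _)

@[simp] theorem lg_zero : Γ.lg 0 = 0 := by simp [lg]

theorem tendsto_lg : Tendsto (fun g : Γ.G => Γ.lg g.u) (𝓝 1) (𝓝 0) := by
  have := ((Γ.contDiffAt_lg (n := 0)).continuousAt.tendsto).comp (G.continuous_u.tendsto (1 : Γ.G))
  rw [lg_zero] at this
  exact this

theorem e_lg : ∀ᶠ g in 𝓝 (1 : Γ.G), Γ.e (Γ.lg g.u) = g := by
  have c1 : Tendsto (fun g : Γ.G => g.u) (𝓝 1) (𝓝 0) := G.continuous_u.tendsto 1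
  have c2 := Γ.tendsto_lg
  have c3 : ∀ᶠ u in 𝓝 (0 : B), ‖Γ.m ((-2 : ℝ)⁻¹ • u)‖ < 1 :=
    (show ContinuousAt (fun u : B => ‖Γ.m ((-2 : ℝ)⁻¹ • u)‖) 0 by fun_prop).eventually_lt
      continuousAt_const (by simp)
  filter_upwards [c2.eventually Γ.small, c1.eventually c3] with g h1 h2
  set y := (-2 : ℝ)⁻¹ • g.u with hy
  have hu : g.u = (-2 : ℝ) • y := by rw [hy, smul_smul]; norm_num
  set q := Γ.qi y with hq
  have q1 : Γ.m y q = q - y := qi_left h2
  have q2 : Γ.m q y = q - y := qi_right h2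
  have q3 : Γ.m (Γ.s q) (Γ.s y) = Γ.s q - Γ.s y := by rw [← Γ.sm, q1, map_sub]
  have hU : (2 : ℝ) • Γ.m y (Γ.s y) = y + Γ.s y := by
    have := g.isU.1
    simp only [circ, hu, map_smul, smul_apply] at this
    linear_combination (norm := module) (2 : ℝ)⁻¹ • this
  have hsk : Γ.s q = -q := by
    have a1 : (q + Γ.s q) - Γ.m (q + Γ.s q) (Γ.s y) = 0 := by
      refine inj_sub h2 ?_
      simp only [map_add, map_sub, add_apply, sub_apply,
        q3, ← Γ.assoc, q1]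
      linear_combination (norm := module) -hU
    have a2 := congrArg Γ.s a1
    rw [map_sub, Γ.sm, Γ.ss, map_zero] at a2
    have a3 := inj_sub h2 a2
    rw [map_add, Γ.ss] at a3
    exact eq_neg_of_add_eq_zero_left a3
  have hj : (2 : ℝ)⁻¹ • Γ.j (Γ.lg g.u) = -q := by
    rw [lg, Γ.jπ _ (by rw [map_smul, hsk, smul_neg])]
    module
  refine G.ext ?_
  rw [Γ.e_u h1, qi_eq (η := -y) h1, hu]
  · module
  · rw [hj]; simp only [map_neg, neg_apply, neg_neg, q2]; abel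

theorem image_e_mem {U : Set L} (hU : U ∈ 𝓝 0) : Γ.e '' U ∈ 𝓝 (1 : Γ.G) := by
  filter_upwards [Γ.e_lg, Γ.tendsto_lg.eventually hU] with g h1 h2
  exact ⟨_, h2, h1⟩

theorem map_e : map Γ.e (𝓝 0) = 𝓝 1 :=
  le_antisymm Γ.tendsto_e (le_map fun _ hU => Γ.image_e_mem hU)

/-! ### smooth actions -/

section act

variable {C : Type*} [NormedAddCommGroup C] [NormedSpace ℝ C]

omit [CompleteSpace B] [NormedAddCommGroup C] [NormedSpace ℝ C] in
/-- the action defined by a map `α`. -/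
@[reducible] def mulAction (α : B → C → C) (h0 : ∀ x, α 0 x = x)
    (hm : ∀ u v, Γ.IsU u → Γ.IsU v → ∀ x, α (Γ.circ u v) x = α u (α v x)) : MulAction Γ.G C where
  smul g x := α g.u x
  one_smul := h0
  mul_smul g h := hm _ _ g.isU h.isU

variable {Γ} [MulAction Γ.G C] {α : B → C → C} (hα : ∀ (g : Γ.G) x, g • x = α g.u x)
include hα

omit [CompleteSpace B] [NormedSpace ℝ C] in
theorem continuousSMul (hc : Continuous fun p : B × C => α p.1 p.2) : ContinuousSMul Γ.G C :=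
  ⟨by
    simp only [hα]
    exact hc.comp ((G.continuous_u.comp continuous_fst).prodMk continuous_snd)⟩

/-- the strict derivative of `(ξ, x) ↦ e ξ • x` (field `act` of `Slc61.SliceData`). -/
theorem hasStrict_act {x₀ : C} {α' : B × C →L[ℝ] C}
    (hd : HasStrictFDerivAt (fun p : B × C => α p.1 p.2) α' (0, x₀)) {d : L →L[ℝ] C}
    (hj : ∀ ξ, α' (Γ.j ξ, 0) = d ξ) :
    HasStrictFDerivAt (fun q : L × C => Γ.e q.1 • q.2)
      (d.coprod (ContinuousLinearMap.id ℝ C)) (0, x₀) := by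
  have h0 : ∀ x, α 0 x = x := fun x => by rw [← G.one_u (Γ := Γ), ← hα, one_smul]
  have hi : ∀ v, α' (0, v) = v := fun v => by
    have a1 : HasFDerivAt (fun x : C => α 0 x) (α'.comp (ContinuousLinearMap.inr ℝ B C)) x₀ :=
      hd.hasFDerivAt.comp x₀ (f := fun x : C => ((0 : B), x)) (hasFDerivAt_prodMk_right 0 x₀)
    simp only [h0] at a1
    exact congrArg (fun T : C →L[ℝ] C => T v) (a1.unique (hasFDerivAt_id x₀))
  have h1 : HasStrictFDerivAt (fun q : L × C => ((Γ.e q.1).u, q.2))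
      ((Γ.j.comp (ContinuousLinearMap.fst ℝ L C)).prod (ContinuousLinearMap.snd ℝ L C)) (0, x₀) :=
    (HasStrictFDerivAt.comp (f := Prod.fst) ((0 : L), x₀) Γ.hasStrict_e
      hasStrictFDerivAt_fst).prodMk hasStrictFDerivAt_snd
  have hd' : HasStrictFDerivAt (fun p : B × C => α p.1 p.2) α' ((Γ.e ((0 : L), x₀).1).u, ((0 : L), x₀).2) := by
    simpa [Γ.e_zero] using hd
  simp only [hα]
  refine (hd'.comp ((0 : L), x₀) h1).congr_fderiv ?_
  refine ContinuousLinearMap.ext fun q => ?_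
  have : α' (Γ.j q.1, q.2) = α' (Γ.j q.1, 0) + α' (0, q.2) := by rw [← map_add]; simp
  simp [this, hi, hj]

end act

omit [CompleteSpace B] in
/-- product of two algebras (e.g. the gauge group times a circle). -/
def prod {B' L' : Type*} [NormedAddCommGroup B'] [NormedSpace ℝ B'] [NormedAddCommGroup L']
    [NormedSpace ℝ L'] (Γ' : SA B' L') : SA (B × B') (L × L') where
  m := (ContinuousLinearMap.prodMapL ℝ B B B' B').comp (Γ.m.prodMap Γ'.m)
  s := Γ.s.prodMap Γ'.s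
  j := Γ.j.prodMap Γ'.j
  π := Γ.π.prodMap Γ'.π
  assoc _ _ _ := Prod.ext (Γ.assoc _ _ _) (Γ'.assoc _ _ _)
  ss _ := Prod.ext (Γ.ss _) (Γ'.ss _)
  sm _ _ := Prod.ext (Γ.sm _ _) (Γ'.sm _ _)
  πj _ := Prod.ext (Γ.πj _) (Γ'.πj _)
  sj _ := Prod.ext (Γ.sj _) (Γ'.sj _)
  jπ _ h := Prod.ext (Γ.jπ _ (congrArg Prod.fst h)) (Γ'.jπ _ (congrArg Prod.snd h))

omit [CompleteSpace B] in
theorem prod_isU {B' L' : Type*} [NormedAddCommGroup B'] [NormedSpace ℝ B'] [NormedAddCommGroup L']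
    [NormedSpace ℝ L'] (Γ' : SA B' L') (u : B × B') :
    (Γ.prod Γ').IsU u ↔ Γ.IsU u.1 ∧ Γ'.IsU u.2 :=
  ⟨fun h => ⟨⟨congrArg Prod.fst h.1, congrArg Prod.fst h.2⟩,
    ⟨congrArg Prod.snd h.1, congrArg Prod.snd h.2⟩⟩,
   fun h => ⟨Prod.ext h.1.1 h.2.1, Prod.ext h.1.2 h.2.2⟩⟩

omit [CompleteSpace B] in
theorem prod_circ {B' L' : Type*} [NormedAddCommGroup B'] [NormedSpace ℝ B'] [NormedAddCommGroup L']
    [NormedSpace ℝ L'] (Γ' : SA B' L') (u v : B × B') :
    (Γ.prod Γ').circ u v = (Γ.circ u.1 v.1, Γ'.circ u.2 v.2) := rfl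

end SA

/-- the circle: `B = ℂ`, `g = 1 + u`, Lie algebra `ℝ ∋ t ↦ i t`. -/
def circle : SA ℂ ℝ where
  m := ContinuousLinearMap.mul ℝ ℂ
  s := Complex.conjCLE
  j := (ContinuousLinearMap.id ℝ ℝ).smulRight Complex.I
  π := Complex.imCLM
  assoc := fun u v w => mul_assoc u v w
  ss := fun u => by simp
  sm := fun u v => by simp [mul_comm]
  πj := fun ξ => by simp
  sj := fun ξ => by simp
  jπ := fun x h => by
    have := congrArg Complex.re h
    simp only [ContinuousLinearEquiv.coe_coe, Complex.conjCLE_apply, Complex.conj_re,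
      Complex.neg_re] at this
    apply Complex.ext <;> simp
    linarith

theorem circle_circ (u v : ℂ) : 1 + circle.circ u v = (1 + u) * (1 + v) := by
  simp only [SA.circ, circle, ContinuousLinearMap.mul_apply']; ring

theorem circle_isU {u : ℂ} : circle.IsU u ↔ ‖1 + u‖ = 1 := by
  have h1 : 1 + circle.circ u (circle.s u) = ((‖1 + u‖ ^ 2 : ℝ) : ℂ) := by
    rw [circle_circ, ← Complex.normSq_eq_norm_sq, ← Complex.mul_conj]; simp [circle]
  have h2 : circle.circ (circle.s u) u = circle.circ u (circle.s u) := by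
    simp only [SA.circ, circle, ContinuousLinearMap.mul_apply']; ring
  rw [SA.IsU, h2, and_self, ← add_right_inj 1, h1, add_zero, Complex.ofReal_eq_one,
    pow_eq_one_iff_of_nonneg (norm_nonneg _) two_ne_zero]

end Crest.Agent.X212.Grp72
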